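import Vale.Agent.P132.Fixed.Positive
import Vale.Agent.P132.Fixed.Window

/-!
# Consequences of the modular data: the commutant, positivity, maximality
-/

namespace Vale.Agent.P132.Modular

open scoped InnerProductSpace Topology ComplexOrder ComplexConjugate
open Filter MeasureTheory

universe u

variable {H : Type u} [NormedAddCommGroup H] [InnerProductSpace ℂ H] [CompleteSpace H]
  {M : VonNeumannAlgebra H} {Ω : H} (D : ModData M Ω)

theorem continuous_vint {c : ℝ → ℂ} (hc : Integrable c) : Continuous (Fixed.vint D c) := by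
  refine AddMonoidHomClass.continuous_of_bound
    (AddMonoidHom.mk' (Fixed.vint D c) fun v w => Fixed.vint_add D hc v w) (∫ t : ℝ, ‖c t‖)
    fun v => Fixed.norm_vint_le D c v

/-- A shrinking width. -/
noncomputable def wid (n : ℕ) : ℝ := 1 / ((n : ℝ) + 1)

theorem wid_pos (n : ℕ) : 0 < wid n := by unfold wid; positivity

/-- The normalisation of a window. -/
noncomputable def nrm (n : ℕ) : ℝ := (wid n * √(2 * Real.pi))⁻¹

theorem nrm_pos (n : ℕ) : 0 < nrm n := by have := wid_pos n; unfold nrm; positivity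

/-- The averaged vector. -/
noncomputable def avg (n : ℕ) (ξ : H) : H :=
  (nrm n : ℂ) • Fixed.vint D (fun t => gauss (wid n) 0 (t : ℂ)) ξ

/-- The averaged vector, shifted by half the imaginary unit. -/
noncomputable def shf (n : ℕ) (ξ : H) : H :=
  (nrm n : ℂ) • Fixed.vint D (fun t => gauss (wid n) 0 ((t : ℂ) + Complex.I / 2)) ξ

theorem continuous_avg (n : ℕ) : Continuous (avg D n) :=
  (continuous_vint D (Fixed.integrable_gauss (wid_pos n) 0)).const_smul (nrm n : ℂ)

theorem shf_eq (n : ℕ) (ξ : H) : shf D n ξ =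
    ((nrm n * Real.exp (1 / (8 * wid n ^ 2)) : ℝ) : ℂ) •
      Fixed.vint D (fun t => gauss (wid n) (1 / (2 * wid n ^ 2)) (t : ℂ)) ξ := by
  rw [shf, Fixed.vint_gauss_shift, smul_smul, Complex.ofReal_mul]
  simp

theorem continuous_shf (n : ℕ) : Continuous (shf D n) := by
  simp only [funext (shf_eq D n)]
  exact (continuous_vint D (Fixed.integrable_gauss (wid_pos n) _)).const_smul _

theorem inner_avg (n : ℕ) (η ξ : H) : ⟪avg D n η, ξ⟫_ℂ = ⟪η, avg D n ξ⟫_ℂ := by
  rw [avg, avg, inner_smul_left, inner_smul_right, Complex.conj_ofReal,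
    Fixed.inner_vint_gauss D _ _ (wid_pos n)]

theorem inner_shf (n : ℕ) (η ξ : H) : ⟪shf D n η, ξ⟫_ℂ = ⟪η, shf D n ξ⟫_ℂ := by
  rw [shf_eq, shf_eq, inner_smul_left, inner_smul_right, Complex.conj_ofReal,
    Fixed.inner_vint_gauss D _ _ (wid_pos n)]

theorem shf_pos (n : ℕ) (ξ : H) :
    ∃ r : ℝ, 0 ≤ r ∧ ⟪ξ, shf D n ξ⟫_ℂ = (r : ℂ) := by
  refine ⟨nrm n * Real.exp (1 / (8 * wid n ^ 2)) * Fixed.dens D (wid n) ξ (1 / (2 * wid n ^ 2)),
    mul_nonneg (mul_nonneg (nrm_pos n).le (Real.exp_pos _).le)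
      (Fixed.dens_nonneg D (wid_pos n) _ _), ?_⟩
  rw [shf_eq, inner_smul_right, Fixed.inner_window_self D (wid_pos n), Complex.ofReal_mul (_ * _)]

theorem J_avg (n : ℕ) (ξ : H) : D.J (avg D n ξ) = avg D n (D.J ξ) := by
  rw [avg, avg, D.J_smul, Complex.conj_ofReal, Fixed.J_vint]
  simp [Fixed.conj_gauss]

theorem tendsto_avg (ξ : H) : Tendsto (fun n => avg D n ξ) atTop (𝓝 ξ) := by
  have he : ∀ n, avg D n ξ = ((√(2 * Real.pi))⁻¹ : ℂ) •
      ∫ s : ℝ, Fixed.gam 1 s • D.U (wid n * s) ξ := by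
    intro n
    have hw := wid_pos n
    have h := Measure.integral_comp_mul_left
      (fun t : ℝ => gauss (wid n) 0 (t : ℂ) • D.U t ξ) (wid n)
    have hg : ∀ s : ℝ, gauss (wid n) 0 ((wid n * s : ℝ) : ℂ) = Fixed.gam 1 s := by
      intro s
      rw [Fixed.gauss_eq, Fixed.ph, Fixed.gam_scale hw.ne']
      simp
    simp only [hg, abs_of_pos (inv_pos.2 hw)] at h
    rw [avg, Fixed.vint, h, ← Complex.coe_smul, smul_smul, nrm, mul_inv]
    congr 1
    push_cast
    ring
  have hlim : Tendsto (fun n => ∫ s : ℝ, Fixed.gam 1 s • D.U (wid n * s) ξ) atTop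
      (𝓝 (∫ s : ℝ, Fixed.gam 1 s • ξ)) := by
    apply tendsto_integral_of_dominated_convergence (fun s : ℝ => ‖Fixed.gam 1 s‖ * ‖ξ‖)
    · intro n
      exact (((Fixed.continuous_gam 1).comp Complex.continuous_ofReal).smul
        ((D.U_cont ξ).comp (continuous_const.mul continuous_id))).aestronglyMeasurable
    · exact (Fixed.integrable_gam one_pos).norm.mul_const _
    · intro n
      filter_upwards with s
      rw [norm_smul, Fixed.norm_U]
    · filter_upwards with s
      have h1 : Tendsto (fun n => wid n * s) atTop (𝓝 0) := by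
        simpa [wid] using (tendsto_one_div_add_atTop_nhds_zero_nat).mul_const s
      have h2 := ((D.U_cont ξ).tendsto 0).comp h1
      simp only [D.U_zero, one_apply_eq_self] at h2
      exact h2.const_smul (Fixed.gam 1 s)
  have hI : (∫ s : ℝ, Fixed.gam 1 s) = (√(2 * Real.pi) : ℂ) := by
    have h : ∀ s : ℝ, Fixed.gam 1 s = ((Real.exp (-(1 / 2) * s ^ 2) : ℝ) : ℂ) := by
      intro s
      rw [Fixed.gam_ofReal]
      congr 2
      ring
    simp only [h]
    rw [integral_complex_ofReal, integral_gaussian]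
    congr 2
    ring
  have h2 := hlim.const_smul ((√(2 * Real.pi))⁻¹ : ℂ)
  rw [integral_smul_const, hI, smul_smul, inv_mul_cancel₀, one_smul] at h2
  · exact h2.congr fun n => (he n).symm
  · exact Complex.ofReal_ne_zero.2 (by positivity)

/-- The averaged element, and the identity of Tomita on it. -/
theorem exists_avg (n : ℕ) {x : H →L[ℂ] H} (hx : x ∈ M) : ∃ w ∈ M,
    w Ω = avg D n (x Ω) ∧ star w Ω = avg D n (star x Ω) ∧
      D.J (star w Ω) = shf D n (x Ω) := by
  have hg := Fixed.integrable_gauss (wid_pos n) 0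
  set w := (nrm n : ℂ) • Fixed.sop D (fun t => gauss (wid n) 0 (t : ℂ)) x
  have h1 : star w Ω = avg D n (star x Ω) := by
    simp [w, avg, star_smul, Fixed.star_sop D hg, Fixed.conj_gauss,
      Fixed.sop_omega D hg, smul_apply]
  refine ⟨w, M.toStarSubalgebra.smul_mem (Fixed.sop_mem D hg hx) _,
    by simp [w, avg, Fixed.sop_omega D hg], h1, ?_⟩
  rw [h1, avg, shf, D.J_smul, Complex.conj_ofReal]
  have h := D.kms x hx (wid n) 0 (wid_pos n)
  simp only [Fixed.conj_gauss, neg_zero] at h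
  rw [Fixed.vint, h, Fixed.vint]

theorem tendsto_shf {y : H →L[ℂ] H} (hy : y ∈ M) :
    Tendsto (fun n => shf D n (y Ω)) atTop (𝓝 (D.J (star y Ω))) := by
  refine (((Fixed.continuous_J D).tendsto _).comp (tendsto_avg D (star y Ω))).congr fun n => ?_
  obtain ⟨w, -, -, h2, h3⟩ := exists_avg D n hy
  rw [Function.comp_apply, ← h2, h3]

theorem inner_nonneg {y : H →L[ℂ] H} (hy : y ∈ M) :
    0 ≤ ⟪y Ω, D.J (star y Ω)⟫_ℂ := by
  choose r hr0 hr using fun n => shf_pos D n (y Ω)
  have h := (tendsto_const_nhds (x := y Ω)).inner (𝕜 := ℂ) (tendsto_shf D hy)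
  simp only [hr] at h
  rw [Complex.le_def]
  exact ⟨ge_of_tendsto (((Complex.continuous_re.tendsto _).comp h)) (Eventually.of_forall hr0),
    (tendsto_nhds_unique ((Complex.continuous_im.tendsto _).comp h)
      (tendsto_const_nhds.congr fun n => by simp)).symm⟩

theorem inner_symm {y z : H →L[ℂ] H} (hy : y ∈ M) (hz : z ∈ M) :
    conj ⟪y Ω, D.J (star z Ω)⟫_ℂ = ⟪z Ω, D.J (star y Ω)⟫_ℂ := by
  refine tendsto_nhds_unique ((Complex.continuous_conj.tendsto _).comp
    ((tendsto_const_nhds (x := y Ω)).inner (𝕜 := ℂ) (tendsto_shf D hz))) ?_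
  refine ((tendsto_const_nhds (x := z Ω)).inner (𝕜 := ℂ) (tendsto_shf D hy)).congr fun n => ?_
  rw [Function.comp_apply, inner_conj_symm, inner_shf]

theorem ext_omega (hcs : IsCS M Ω) {v : H} (h : ∀ x ∈ M, ⟪x Ω, v⟫_ℂ = 0) : v = 0 := by
  have hd : Dense {w : H | ∃ x ∈ M, x Ω = w} := by
    intro w
    rw [Metric.mem_closure_iff]
    intro e he
    obtain ⟨x, hx, hxw⟩ := hcs.cyclic w (e / 2) (half_pos he)
    exact ⟨x Ω, ⟨x, hx, rfl⟩, by rw [dist_comm, dist_eq_norm]; linarith⟩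
  have := hd.closure_eq ▸ closure_minimal (t := {w : H | ⟪w, v⟫_ℂ = 0})
    (by rintro _ ⟨x, hx, rfl⟩; exact h x hx) (isClosed_eq (by fun_prop) continuous_const)
  exact inner_self_eq_zero.1 (this (Set.mem_univ v))

/-- `⟨y Ω, Δ^(1/2) y Ω⟩ > 0`. -/
theorem pos_inner (hcs : IsCS M Ω) {y : H →L[ℂ] H} (hy : y ∈ M) (h0 : y ≠ 0) :
    0 < ⟪y Ω, D.J (star y Ω)⟫_ℂ := by
  refine lt_of_le_of_ne (inner_nonneg D hy) fun hq => h0 ?_
  have key : ∀ z ∈ M, (⟪y Ω, D.J (star z Ω)⟫_ℂ).re = 0 := by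
    intro z hz
    have hpoly : ∀ t : ℝ, 0 ≤ t * (2 * (⟪y Ω, D.J (star z Ω)⟫_ℂ).re) +
        t ^ 2 * (⟪z Ω, D.J (star z Ω)⟫_ℂ).re := by
      intro t
      have h := (Complex.le_def.1 (inner_nonneg D
        (add_mem hy (M.toStarSubalgebra.smul_mem hz (t : ℂ))))).1
      rw [star_add, star_smul, Complex.star_def, Complex.conj_ofReal, add_apply, add_apply,
        smul_apply, smul_apply, D.J_add, D.J_smul, Complex.conj_ofReal,
        inner_add_left, inner_add_right, inner_add_right, inner_smul_left, inner_smul_left,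
        inner_smul_right, inner_smul_right, Complex.conj_ofReal, ← hq, ← inner_symm D hy hz] at h
      simp only [Complex.zero_re, Complex.add_re, Complex.re_ofReal_mul, zero_add,
        Complex.conj_re] at h
      linarith
    set a := (⟪y Ω, D.J (star z Ω)⟫_ℂ).re
    set b := (⟪z Ω, D.J (star z Ω)⟫_ℂ).re
    have hb : 0 ≤ b := (Complex.le_def.1 (inner_nonneg D hz)).1
    have h := hpoly (-(a / (b + 1)))
    field_simp at h
    have ha : a ^ 2 * (b + 2) ≤ 0 := by nlinarith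
    have : a ^ 2 = 0 := le_antisymm (by nlinarith) (sq_nonneg a)
    simpa using this
  have hall : ∀ z ∈ M, ⟪y Ω, D.J (star z Ω)⟫_ℂ = 0 := by
    intro z hz
    have h1 := key _ (M.toStarSubalgebra.smul_mem hz Complex.I)
    rw [star_smul, smul_apply, D.J_smul, Complex.star_def, Complex.conj_conj, inner_smul_right,
      Complex.I_mul_re, neg_eq_zero] at h1
    exact Complex.ext (key z hz) h1
  refine hcs.separating y hy ?_
  rw [← D.J_invol (y Ω), ext_omega hcs (v := D.J (y Ω)) fun x hx => ?_, Fixed.J_zero]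
  rw [← inner_eq_zero_symm, Fixed.inner_J_left D, inner_eq_zero_symm]
  simpa using hall (star x) (star_mem hx)

/-- The conjugate of an operator by `J`. -/
noncomputable def conjOp (x : H →L[ℂ] H) : H →L[ℂ] H :=
  LinearMap.mkContinuous
    { toFun := fun v => D.J (x (D.J v))
      map_add' := fun v w => by rw [D.J_add, map_add, D.J_add]
      map_smul' := fun c v => by simp [D.J_smul] }
    ‖x‖ fun v => by
      show ‖D.J (x (D.J v))‖ ≤ _
      rw [Fixed.norm_J]
      exact (x.le_opNorm _).trans_eq (by rw [Fixed.norm_J])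

theorem conjOp_apply (x : H →L[ℂ] H) (v : H) : conjOp D x v = D.J (x (D.J v)) := rfl

theorem conjOp_omega (x : H →L[ℂ] H) : conjOp D x Ω = D.J (x Ω) := by
  rw [conjOp_apply, D.J_omega]

theorem conjOp_mem {x : H →L[ℂ] H} (hx : x ∈ M) : conjOp D x ∈ M.commutant := by
  rw [VonNeumannAlgebra.mem_commutant_iff]
  intro g hg
  ext v
  exact D.J_comm g hg x hx v

theorem star_conjOp (x : H →L[ℂ] H) : star (conjOp D x) = conjOp D (star x) := by
  rw [ContinuousLinearMap.star_eq_adjoint, eq_comm, ContinuousLinearMap.eq_adjoint_iff]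
  intro v w
  rw [conjOp_apply, conjOp_apply, Fixed.inner_J_left D, ContinuousLinearMap.star_eq_adjoint,
    ContinuousLinearMap.adjoint_inner_right]
  conv_rhs => rw [← D.J_invol v, D.J_inner]

/-- A pair of vectors in the duality of `Ω` is a limit of `(z Ω, z* Ω)`. -/
theorem exists_near (hcs : IsCS M Ω) {η θ : H}
    (h : ∀ x ∈ M, ⟪η, D.J (x Ω)⟫_ℂ = ⟪D.J (star x Ω), θ⟫_ℂ) {e : ℝ} (he : 0 < e) :
    ∃ z ∈ M, ‖z Ω - η‖ ≤ e ∧ ‖star z Ω - θ‖ ≤ e := by
  have rel : ∀ η θ : H, (∀ x ∈ M, ⟪η, D.J (x Ω)⟫_ℂ = ⟪D.J (star x Ω), θ⟫_ℂ) → ∀ n,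
      avg D n (D.J η) = shf D n θ := by
    intro η θ h n
    rw [← sub_eq_zero]
    refine ext_omega hcs fun x hx => ?_
    obtain ⟨w, hw, h1, h2, h3⟩ := exists_avg D n hx
    rw [inner_sub_right, sub_eq_zero, ← inner_avg, ← inner_shf, ← h1, ← h3, ← h w hw]
    conv_rhs => rw [← D.J_invol η, D.J_inner]
  have h' : ∀ x ∈ M, ⟪θ, D.J (x Ω)⟫_ℂ = ⟪D.J (star x Ω), η⟫_ℂ := by
    intro x hx
    have := congrArg conj (h (star x) (star_mem hx))
    rw [inner_conj_symm, inner_conj_symm, star_star] at this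
    exact this.symm
  have ev : ∀ᶠ n in atTop, ‖avg D n η - η‖ < e / 2 ∧ ‖avg D n θ - θ‖ < e / 2 := by
    have := fun v : H => (tendsto_iff_norm_sub_tendsto_zero.1 (tendsto_avg D v)).eventually
      (Iio_mem_nhds (half_pos he))
    exact (this η).and (this θ)
  obtain ⟨n, hη, hθ⟩ := ev.exists
  have hA := (continuous_avg D n).tendsto η
  have hS := (continuous_shf D n).tendsto η
  obtain ⟨ρ, hρ, hρA⟩ := Metric.mem_nhds_iff.1
    ((hA.eventually (Metric.ball_mem_nhds _ (half_pos he))).and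
      (hS.eventually (Metric.ball_mem_nhds _ (half_pos he))))
  obtain ⟨y, hy, hyη⟩ := hcs.cyclic η (ρ / 2) (half_pos hρ)
  obtain ⟨d1, d2⟩ := hρA (show y Ω ∈ Metric.ball η ρ by rw [mem_ball_iff_norm]; linarith)
  rw [dist_eq_norm] at d1 d2
  obtain ⟨w, hw, h1, -, h3⟩ := exists_avg D n hy
  refine ⟨w, hw, ?_, ?_⟩
  · rw [h1]
    linarith [norm_sub_le_norm_sub_add_norm_sub (avg D n (y Ω)) (avg D n η) η]
  · have h4 : ‖star w Ω - avg D n θ‖ ≤ e / 2 := by
      rw [← Fixed.norm_J D, Fixed.J_sub, h3, J_avg, rel θ η h' n]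
      exact d2.le
    linarith [norm_sub_le_norm_sub_add_norm_sub (star w Ω) (avg D n θ) θ]

/-- The graph of the commutant is maximal. -/
theorem maximal (D : ModData M Ω) (hcs : IsCS M Ω) {η θ : H}
    (h : ∀ y' ∈ M.commutant, ⟪η, y' Ω⟫_ℂ = ⟪star y' Ω, θ⟫_ℂ) {e : ℝ} (he : 0 < e) :
    ∃ z ∈ M, ‖z Ω - η‖ ≤ e ∧ ‖star z Ω - θ‖ ≤ e :=
  exists_near D hcs (fun x hx => by
    have := h _ (conjOp_mem D hx)
    rwa [star_conjOp, conjOp_omega, conjOp_omega] at this) he

/-- `J M J` is the whole commutant. -/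
theorem commutant_onto (hcs : IsCS M Ω) {a : H →L[ℂ] H} (ha : a ∈ M.commutant) :
    ∃ x ∈ M, ∀ v, a v = D.J (x (D.J v)) := by
  have hc := VonNeumannAlgebra.mem_commutant_iff.1 ha
  have hdual : ∀ x ∈ M, ⟪D.J (a Ω), D.J (x Ω)⟫_ℂ = ⟪D.J (star x Ω), D.J (star a Ω)⟫_ℂ := by
    intro x hx
    rw [D.J_inner, D.J_inner, ContinuousLinearMap.star_eq_adjoint (A := a),
      ContinuousLinearMap.adjoint_inner_left]
    have : a (star x Ω) = star x (a Ω) :=
      congrArg (fun f : H →L[ℂ] H => f Ω) (hc _ (star_mem hx)).symm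
    rw [this, ContinuousLinearMap.star_eq_adjoint, ContinuousLinearMap.adjoint_inner_right]
  choose z hz hz1 hz2 using fun n : ℕ => exists_near D hcs hdual (wid_pos n)
  have lim : ∀ (w : ℕ → H →L[ℂ] H) (b : H →L[ℂ] H), b ∈ M.commutant → (∀ n, w n ∈ M) →
      (∀ n, ‖w n Ω - D.J (b Ω)‖ ≤ wid n) → ∀ y ∈ M,
        Tendsto (fun n => w n (D.J (y Ω))) atTop (𝓝 (conjOp D b (D.J (y Ω)))) := by
    intro w b hb hw hwb y hy
    have h1 : Tendsto (fun n => w n Ω) atTop (𝓝 (D.J (b Ω))) :=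
      tendsto_iff_norm_sub_tendsto_zero.2
        (squeeze_zero (fun n => norm_nonneg _) hwb tendsto_one_div_add_atTop_nhds_zero_nat)
    have h2 := ((conjOp D y).continuous.tendsto _).comp h1
    have e1 : conjOp D y (D.J (b Ω)) = conjOp D b (D.J (y Ω)) := by
      rw [conjOp_apply, conjOp_apply, D.J_invol, D.J_invol]
      exact congrArg (fun f : H →L[ℂ] H => D.J (f Ω))
        (VonNeumannAlgebra.mem_commutant_iff.1 hb y hy)
    rw [e1] at h2
    refine h2.congr fun n => ?_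
    rw [Function.comp_apply, ← conjOp_omega]
    exact (congrArg (fun f : H →L[ℂ] H => f Ω)
      (VonNeumannAlgebra.mem_commutant_iff.1 (conjOp_mem D hy) _ (hw n))).symm
  refine ⟨conjOp D a, ?_, fun v => by rw [conjOp_apply, D.J_invol, D.J_invol]⟩
  rw [← SetLike.mem_coe, ← VonNeumannAlgebra.centralizer_centralizer M, Set.mem_centralizer_iff]
  intro b hb
  have key : ∀ y ∈ M, b (conjOp D a (D.J (y Ω))) = conjOp D a (b (D.J (y Ω))) := by
    intro y hy
    rw [← sub_eq_zero, ← D.J_invol (_ - _), ext_omega hcs (v := D.J (_ - _)) fun x hx => ?_,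
      Fixed.J_zero]
    rw [← inner_eq_zero_symm, Fixed.inner_J_left D, inner_sub_right, sub_eq_zero]
    have ha' := lim z a ha hz hz1 y hy
    have hs' := lim (fun n => star (z n)) (star a) (star_mem ha) (fun n => star_mem (hz n))
      hz2 x hx
    have h1 := (tendsto_const_nhds (x := D.J (x Ω))).inner (𝕜 := ℂ)
      ((b.continuous.tendsto _).comp ha')
    have h2 := hs'.inner (𝕜 := ℂ) (tendsto_const_nhds (x := b (D.J (y Ω))))
    rw [← star_conjOp, ContinuousLinearMap.star_eq_adjoint,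
      ContinuousLinearMap.adjoint_inner_left] at h2
    refine tendsto_nhds_unique h1 (h2.congr fun n => ?_)
    rw [ContinuousLinearMap.star_eq_adjoint, ContinuousLinearMap.adjoint_inner_left,
      Function.comp_apply]
    exact congrArg (fun v => ⟪D.J (x Ω), v⟫_ℂ) (congrArg (fun f : H →L[ℂ] H => f (D.J (y Ω)))
      (Set.mem_centralizer_iff.1 hb (z n) (hz n)))
  ext v
  have hcl : IsClosed {w : H | b (conjOp D a (D.J w)) = conjOp D a (b (D.J w))} :=
    isClosed_eq (b.continuous.comp ((conjOp D a).continuous.comp (Fixed.continuous_J D)))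
      ((conjOp D a).continuous.comp (b.continuous.comp (Fixed.continuous_J D)))
  have : D.J v ∈ {w : H | b (conjOp D a (D.J w)) = conjOp D a (b (D.J w))} := by
    refine hcl.closure_subset (Metric.mem_closure_iff.2 fun e he => ?_)
    obtain ⟨x, hx, hxv⟩ := hcs.cyclic (D.J v) (e / 2) (half_pos he)
    exact ⟨x Ω, key x hx, by rw [dist_comm, dist_eq_norm]; linarith⟩
  simpa [D.J_invol] using this

end Vale.Agent.P132.Modular
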