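import Vale.Agent.P132.Tomita.Main
import Vale.Agent.P132.Tomita.Contour

/-!
# The modular data of a cyclic separating vector
-/

namespace Vale.Agent.P132.Modular

universe u

/-- Tomita's theorem. -/
theorem stmtModular : Iface.StmtModular.{u} :=
  Tomita.stmtModular_of Tomita.stmtOrbit Tomita.stmtShift

end Vale.Agent.P132.Modular
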